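import Vale.Agent.P151G.Spec

/-! Basic lemmas on balls, edge sets and link probabilities. -/

set_option linter.unusedSectionVars false

namespace Vale.Agent.P151G

open Finset Vale.Agent.P151

variable {V : Type} [DecidableEq V] {G : SimpleGraph V} {Δ : ℕ}

theorem Bdd.tri (hG : Bdd G Δ) (x y z : V) : G.dist x z ≤ G.dist x y + G.dist y z :=
  hG.con.dist_triangle

theorem adj_dist {x y : V} (h : G.Adj x y) : G.dist x y ≤ 1 :=
  (SimpleGraph.dist_eq_one_iff_adj.2 h).le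

theorem mem_bl {x y : V} {r : ℕ} : y ∈ bl G x r ↔ G.dist x y ≤ r := Iff.rfl

theorem self_mem_bl (x : V) (r : ℕ) : x ∈ bl G x r := by simp [bl]

theorem bl_mono (x : V) {r r' : ℕ} (h : r ≤ r') : bl G x r ⊆ bl G x r' :=
  fun _ hy => le_trans hy h

theorem Bdd.bl_sub (hG : Bdd G Δ) {x y : V} {r r' : ℕ} (h : G.dist x y + r ≤ r') :
    bl G y r ⊆ bl G x r' := fun z hz => by
  have := hG.tri x y z
  have hz : G.dist y z ≤ r := hz
  show G.dist x z ≤ r'
  omega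

theorem Bdd.eq_of_dist (hG : Bdd G Δ) {x y : V} (h : G.dist x y = 0) : x = y :=
  (hG.con.dist_eq_zero_iff).1 h

/-- one step back along a geodesic -/
theorem Bdd.pred (hG : Bdd G Δ) {x y : V} {n : ℕ} (h : G.dist x y = n + 1) :
    ∃ z, G.dist x z = n ∧ G.Adj z y := by
  obtain ⟨w, hw⟩ := hG.con.exists_walk_length_eq_dist y x
  rw [SimpleGraph.dist_comm, h] at hw
  cases w with
  | nil => simp at hw
  | cons h1 w =>
    rename_i z
    refine ⟨z, ?_, h1.symm⟩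
    have a1 := SimpleGraph.dist_le w
    have a2 := hG.tri x z y
    have a3 := adj_dist h1.symm
    rw [SimpleGraph.dist_comm] at a1
    simp only [SimpleGraph.Walk.length_cons] at hw
    omega

/-- intermediate points on a geodesic -/
theorem Bdd.mid (hG : Bdd G Δ) (x : V) (a : ℕ) : ∀ (b : ℕ) (y : V), G.dist x y ≤ a + b →
    ∃ z, G.dist x z ≤ a ∧ G.dist z y ≤ b := by
  intro b
  induction b with
  | zero => exact fun y h => ⟨y, h, by simp⟩
  | succ b ih =>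
    intro y h
    by_cases c : G.dist x y ≤ a + b
    · obtain ⟨z, h1, h2⟩ := ih y c
      exact ⟨z, h1, by omega⟩
    · obtain ⟨u, h1, h2⟩ := hG.pred (x := x) (y := y) (n := a + b) (by omega)
      obtain ⟨z, h3, h4⟩ := ih u h1.le
      have := hG.tri z u y
      have := adj_dist h2
      exact ⟨z, h3, by omega⟩

theorem Bdd.bl_card (hG : Bdd G Δ) (x : V) (r : ℕ) :
    ∃ N : Finset V, N.card ≤ (Δ + 1) ^ r ∧ ∀ y, y ∈ N ↔ y ∈ bl G x r := by
  classical
  have : ∃ N : Finset V, N.card ≤ (Δ + 1) ^ r ∧ ∀ y, y ∈ bl G x r → y ∈ N := by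
    induction r with
    | zero => exact ⟨{x}, by simp, fun y hy => by
        rw [hG.eq_of_dist (Nat.le_zero.1 hy)]; exact mem_singleton_self _⟩
    | succ r ih =>
      obtain ⟨N, h1, h2⟩ := ih
      choose M hM1 hM2 using hG.deg
      refine ⟨N.biUnion fun z => insert z (M z), ?_, fun y hy => ?_⟩
      · refine card_biUnion_le.trans ((sum_le_card_nsmul _ _ (Δ + 1) fun z _ =>
          (card_insert_le _ _).trans (by have := hM1 z; omega)).trans ?_)
        rw [smul_eq_mul, pow_succ]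
        exact Nat.mul_le_mul_right _ h1
      · by_cases c : G.dist x y ≤ r
        · exact mem_biUnion.2 ⟨y, h2 y c, mem_insert_self _ _⟩
        · have hy : G.dist x y ≤ r + 1 := hy
          obtain ⟨z, h3, h4⟩ := hG.pred (x := x) (y := y) (n := r) (by omega)
          exact mem_biUnion.2 ⟨z, h2 z h3.le, mem_insert_of_mem (hM2 z y h4)⟩
  obtain ⟨N, h1, h2⟩ := this
  exact ⟨N.filter (· ∈ bl G x r), (card_filter_le _ _).trans h1,
    fun y => by rw [mem_filter]; exact ⟨fun h => h.2, fun h => ⟨h2 y h, h⟩⟩⟩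

theorem Bdd.bl_finite (hG : Bdd G Δ) (x : V) (r : ℕ) : (bl G x r).Finite := by
  obtain ⟨N, -, h⟩ := hG.bl_card x r
  exact N.finite_toSet.subset fun y hy => (h y).2 hy

theorem ins_finite {W : Set V} (hW : W.Finite) : (ins W).Finite := by
  refine ((hW.prod hW).image fun a : V × V => s(a.1, a.2)).subset fun e he => ?_
  induction e using Sym2.ind with
  | h x y => exact ⟨(x, y), mk_mem_ins.1 he, rfl⟩

theorem mem_EG {W : Set V} (hW : W.Finite) {e : Sym2 V} :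
    e ∈ EG G W ↔ e ∈ G.edgeSet ∧ e ∈ ins W := by
  rw [EG, dif_pos ((ins_finite hW).subset Set.inter_subset_right), Set.Finite.mem_toFinset]
  rfl

theorem mk_mem_EG {W : Set V} (hW : W.Finite) {x y : V} :
    s(x, y) ∈ EG G W ↔ (x ∈ W ∧ y ∈ W) ∧ G.Adj x y := by
  rw [mem_EG hW, mk_mem_ins, SimpleGraph.mem_edgeSet, and_comm]

theorem of_mem_EG {W : Set V} {e : Sym2 V} (h : e ∈ EG G W) : e ∈ G.edgeSet ∧ e ∈ ins W := by
  unfold EG at h
  split_ifs at h with c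
  · exact (Set.Finite.mem_toFinset c).1 h
  · simp at h

theorem LatG.mono {F F' : Finset (Sym2 V)} (h : LatG G F) (h' : F' ⊆ F) : LatG G F' :=
  fun x y hxy => h x y (h' hxy)

theorem LatG_EG (W : Set V) : LatG G (EG G W) := fun _ _ h => (of_mem_EG h).1

theorem EG_mono {W W' : Set V} (hW' : W'.Finite) (h : W ⊆ W') : EG G W ⊆ EG G W' :=
  fun _ he => (mem_EG hW').2 ⟨(of_mem_EG he).1, ins_mono h (of_mem_EG he).2⟩

theorem keep_EG {W : Set V} (hW : W.Finite) (B : Set V) :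
    keep (EG G W) (ins B) = EG G (W ∩ B) := by
  ext e
  rw [mem_keep, mem_EG hW, mem_EG (hW.subset Set.inter_subset_left)]
  exact ⟨fun h => ⟨h.1.1, fun v hv => ⟨h.1.2 v hv, h.2 v hv⟩⟩,
    fun h => ⟨⟨h.1, fun v hv => (h.2 v hv).1⟩, fun v hv => (h.2 v hv).2⟩⟩

theorem keep_EG' {W B : Set V} (hW : W.Finite) (h : B ⊆ W) : keep (EG G W) (ins B) = EG G B := by
  rw [keep_EG hW, Set.inter_eq_right.2 h]

theorem Bdd.card_EG (hG : Bdd G Δ) (x : V) (r : ℕ) :
    (EG G (bl G x r)).card ≤ ((Δ + 1) ^ r) ^ 2 := by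
  obtain ⟨N, h1, h2⟩ := hG.bl_card x r
  have : EG G (bl G x r) ⊆ (N ×ˢ N).image fun a : V × V => s(a.1, a.2) := by
    intro e he
    induction e using Sym2.ind with
    | h a b =>
      have := mk_mem_ins.1 (of_mem_EG he).2
      exact mem_image.2 ⟨(a, b), mem_product.2 ⟨(h2 a).2 this.1, (h2 b).2 this.2⟩, rfl⟩
  refine (card_le_card this).trans (card_image_le.trans ?_)
  rw [card_product, pow_two]
  exact Nat.mul_le_mul h1 h1

/-- either the path stays in `B` or it leaves `B` for the first time inside `B'` -/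
theorem exit_or {ω : Finset (Sym2 V)} (hL : LatG G ω) {B B' : Set V} (hB : B ⊆ B')
    (hB' : ∀ u ∈ B, ∀ v, G.Adj u v → v ∈ B') {a b : V} (ha : a ∈ B) (h : conn ω a b) :
    (b ∈ B ∧ conn (keep ω (ins B)) a b) ∨ ∃ y ∈ B', y ∉ B ∧ conn (keep ω (ins B')) a y := by
  induction h with
  | refl => exact Or.inl ⟨ha, conn_refl _ _⟩
  | @tail u v _ h2 ih =>
    rcases ih with ⟨h3, h4⟩ | ih
    · by_cases c : v ∈ B
      · exact Or.inl ⟨c, h4.trans (conn_edge (mem_keep.2 ⟨h2, mk_mem_ins.2 ⟨h3, c⟩⟩))⟩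
      · have hv := hB' u h3 v (hL _ _ h2)
        exact Or.inr ⟨v, hv, c, (h4.mono (keep_mono subset_rfl (ins_mono hB))).trans
          (conn_edge (mem_keep.2 ⟨h2, mk_mem_ins.2 ⟨hB h3, hv⟩⟩))⟩
    · exact Or.inr ih

theorem exitG {ω : Finset (Sym2 V)} (hL : LatG G ω) {B B' : Set V} (hB : B ⊆ B')
    (hB' : ∀ u ∈ B, ∀ v, G.Adj u v → v ∈ B') {a b : V} (ha : a ∈ B) (h : conn ω a b)
    (hb : b ∉ B) : ∃ y ∈ B', y ∉ B ∧ conn (keep ω (ins B')) a y :=
  (exit_or hL hB hB' ha h).resolve_left fun c => hb c.1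

/-- leaving a ball -/
theorem Bdd.exit_bl (hG : Bdd G Δ) {ω : Finset (Sym2 V)} (hL : LatG G ω) {x a b : V} {n : ℕ}
    (ha : G.dist x a ≤ n) (h : conn ω a b) (hb : n ≤ G.dist x b) :
    ∃ y ∈ sph G x n, conn (keep ω (ins (bl G x n))) a y := by
  by_cases c : G.dist x a = n
  · exact ⟨a, c, conn_refl _ _⟩
  obtain ⟨y, h1, h2, h3⟩ := exitG hL (B := {y | G.dist x y < n}) (B' := bl G x n)
    (fun y (hy : G.dist x y < n) => hy.le) (fun u (hu : G.dist x u < n) v huv => by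
      have := hG.tri x u v
      have := adj_dist huv
      show G.dist x v ≤ n
      omega) (show G.dist x a < n by omega) h (not_lt.2 hb)
  exact ⟨y, le_antisymm h1 (not_lt.1 h2), h3⟩

theorem Bdd.link_exit (hG : Bdd G Δ) {ω : Finset (Sym2 V)} (hL : LatG G ω) {x : V} {n : ℕ}
    {S T : Set V} (hS : S ⊆ bl G x n) (h : link ω S T) (hT : ∀ t ∈ T, n ≤ G.dist x t) :
    link (keep ω (ins (bl G x n))) S (sph G x n) := by
  obtain ⟨s, hs, t, ht, hc⟩ := h
  obtain ⟨y, hy, h⟩ := hG.exit_bl hL (hS hs) hc (hT t ht)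
  exact ⟨s, hs, y, hy, h⟩

/-- a fully open ball is connected -/
theorem Bdd.bl_conn (hG : Bdd G Δ) {ω : Finset (Sym2 V)} {x : V} {r : ℕ}
    (h : EG G (bl G x r) ⊆ ω) : ∀ y ∈ bl G x r, conn ω x y := by
  have : ∀ n, n ≤ r → ∀ y, G.dist x y = n → conn ω x y := by
    intro n
    induction n with
    | zero => intro _ y hy; rw [← hG.eq_of_dist hy]; exact conn_refl _ _
    | succ n ih =>
      intro hn y hy
      obtain ⟨z, h1, h2⟩ := hG.pred hy
      exact (ih (by omega) z h1).trans (conn_edge (h ((mk_mem_EG (hG.bl_finite x r)).2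
        ⟨⟨show G.dist x z ≤ r by omega, show G.dist x y ≤ r by omega⟩, h2⟩)))
  exact fun y hy => this _ hy y rfl

theorem subset_nb (A : Set V) (j : ℕ) : A ⊆ nb G A j := fun a ha => ⟨a, ha, by simp⟩

theorem nb_mono (A : Set V) {j j' : ℕ} (h : j ≤ j') : nb G A j ⊆ nb G A j' :=
  fun _ ⟨a, ha, h'⟩ => ⟨a, ha, h'.trans h⟩

theorem Bdd.nb_adj (hG : Bdd G Δ) {A : Set V} {j : ℕ} {u v : V} (hu : u ∈ nb G A j)
    (h : G.Adj u v) : v ∈ nb G A (j + 1) := by
  obtain ⟨a, ha, h'⟩ := hu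
  have := hG.tri a u v
  have := adj_dist h
  exact ⟨a, ha, by omega⟩

theorem Bdd.bl_nb (hG : Bdd G Δ) {A : Set V} {j r : ℕ} {x : V} (hx : x ∈ nb G A j) :
    bl G x r ⊆ nb G A (j + r) := by
  obtain ⟨a, ha, h'⟩ := hx
  exact fun y hy => ⟨a, ha, hG.bl_sub (x := a) (Nat.add_le_add_right h' r) hy⟩

theorem Bdd.nb_seed (hG : Bdd G Δ) {A : Set V} {j r : ℕ} {z : V} (hz : z ∈ nb G A (j + r)) :
    ∃ x ∈ nb G A j, z ∈ bl G x r := by
  obtain ⟨a, ha, h'⟩ := hz
  obtain ⟨x, h1, h2⟩ := hG.mid a j r z h'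
  exact ⟨x, ⟨a, ha, h1⟩, h2⟩

theorem Lip.dist (hG : Bdd G Δ) {ρ : V → Z2} {l : ℕ} (h : Lip G ρ l) {x y : V} {n : ℕ}
    (hn : G.dist x y ≤ n) :
    |(ρ y).1 - (ρ x).1| ≤ (l : ℤ) * n ∧ |(ρ y).2 - (ρ x).2| ≤ (l : ℤ) * n := by
  have : ∀ k, ∀ y, G.dist x y = k →
      |(ρ y).1 - (ρ x).1| ≤ (l : ℤ) * k ∧ |(ρ y).2 - (ρ x).2| ≤ (l : ℤ) * k := by
    intro k
    induction k with
    | zero => intro y hy; rw [← hG.eq_of_dist hy]; simp
    | succ k ih =>
      intro y hy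
      obtain ⟨z, h1, h2⟩ := hG.pred hy
      have a1 := ih z h1
      have a2 := h z y h2
      push_cast
      rw [mul_add, mul_one]
      simp only [abs_le] at *
      omega
  have a1 := this _ y rfl
  have a2 : (l : ℤ) * (G.dist x y) ≤ l * n := mul_le_mul_of_nonneg_left (by exact_mod_cast hn) (by omega)
  exact ⟨a1.1.trans a2, a1.2.trans a2⟩

section general

variable {ι : Type*} [DecidableEq ι]

/-- monotonicity in the parameters -/
theorem Ex_up {p q : ι → ℝ} (hp : P01 p) (hq : P01 q) (F : Finset ι) :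
    ∀ f : Finset ι → ℝ, Antitone f → (∀ i ∈ F, p i ≤ q i) → Ex F q f ≤ Ex F p f := by
  induction F using Finset.induction_on with
  | empty => intro f _ _; simp
  | insert e F h ih =>
    intro f hf hpq
    rw [Ex_insert h, Ex_insert h]
    have h1 := ih f hf fun i hi => hpq i (mem_insert_of_mem hi)
    have h2 := ih (fun S => f (insert e S)) (fun S T hST => hf (insert_subset_insert e hST))
      fun i hi => hpq i (mem_insert_of_mem hi)
    have h3 : Ex F p (fun S => f (insert e S)) ≤ Ex F p f :=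
      Ex_mono hp fun S _ => hf (subset_insert e S)
    have h4 := hpq e (mem_insert_self _ _)
    nlinarith [mul_le_mul_of_nonneg_left h2 (hq e).1,
      mul_le_mul_of_nonneg_left h1 (sub_nonneg.2 (hq e).2),
      mul_nonneg (sub_nonneg.2 h4) (sub_nonneg.2 h3)]

/-- monotonicity in the edge set -/
theorem Ex_sub_anti {q : ι → ℝ} (hq : P01 q) {F F' : Finset ι} (h : F ⊆ F') (f : Finset ι → ℝ)
    (hf : Antitone f) : Ex F' q f ≤ Ex F q f := by
  have e : keep F' (F : Set ι) = F := by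
    ext i; rw [mem_keep]; exact ⟨fun a => a.2, fun a => ⟨h a, a⟩⟩
  have := Ex_keep q (F : Set ι) F' f
  rw [e] at this
  rw [← this]
  exact Ex_mono hq fun S _ => hf (keep_subset _ _)

end general

theorem anti_link (S T : Set V) : Antitone fun ω : Finset (Sym2 V) => ind (¬ link ω S T) :=
  fun _ _ h => ind_mono fun h1 h2 => h1 (h2.mono h subset_rfl subset_rfl)

theorem lg_nonneg {p : ℝ} (h0 : 0 ≤ p) (h1 : p ≤ 1) (W S T : Set V) : 0 ≤ lg G p W S T :=
  Ex_nonneg (P01_const h0 h1) fun _ _ => ind_nonneg _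

theorem lg_le_one {p : ℝ} (h0 : 0 ≤ p) (h1 : p ≤ 1) (W S T : Set V) : lg G p W S T ≤ 1 :=
  Ex_le_const (P01_const h0 h1) fun _ _ => ind_le_one _

/-- comparison with a bigger edge set and bigger parameters -/
theorem lg_le {p : ℝ} (h0 : 0 ≤ p) (h1 : p ≤ 1) {F : Finset (Sym2 V)} {q : Sym2 V → ℝ}
    (hq : P01 q) {W : Set V} (h : ∀ e ∈ EG G W, e ∈ F ∧ p ≤ q e) (S T : Set V) :
    Ex F q (fun ω => ind (¬ link ω S T)) ≤ lg G p W S T :=
  (Ex_sub_anti hq (fun e he => (h e he).1) _ (anti_link S T)).trans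
    (Ex_up (P01_const h0 h1) hq _ _ (anti_link S T) fun e he => (h e he).2)

theorem conn_end {W : Set V} {ω : Finset (Sym2 V)} (hω : ω ⊆ EG G W) {a b : V} (h : conn ω a b) :
    b = a ∨ b ∈ W := by
  rcases Relation.ReflTransGen.cases_tail h with rfl | ⟨u, _, h2⟩
  · exact Or.inl rfl
  · exact Or.inr (mk_mem_ins.1 (of_mem_EG (hω h2)).2).2

/-- bigger region, bigger source, bigger target (only points of `W` or `S` matter) -/
theorem lg_mono {p : ℝ} (h0 : 0 ≤ p) (h1 : p ≤ 1) {W W' S S' T T' : Set V} (hW' : W'.Finite)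
    (hW : W ⊆ W') (hS : S ⊆ S') (hT : ∀ y ∈ T, (y ∈ W ∨ y ∈ S) → y ∈ T') :
    lg G p W' S' T' ≤ lg G p W S T := by
  refine (lg_le h0 h1 (P01_const h0 h1) (fun e he => ⟨EG_mono hW' hW he, le_rfl⟩) S' T').trans ?_
  refine Ex_mono (P01_const h0 h1) fun ω hω => ind_mono fun a ⟨s, hs, t, ht, hc⟩ =>
    a ⟨s, hS hs, t, hT t ht ?_, hc⟩
  rcases conn_end hω hc with rfl | c
  · exact Or.inr hs
  · exact Or.inl c

/-- unreachable target -/
theorem lg_eq_one {p : ℝ} {W S T : Set V} (hT : ∀ y ∈ T, y ∉ W ∧ y ∉ S) : lg G p W S T = 1 := by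
  unfold lg
  rw [Ex_congr (g := fun _ => 1), Ex_const]
  intro ω hω
  refine ind_pos fun ⟨s, hs, t, ht, hc⟩ => ?_
  rcases conn_end hω hc with rfl | c
  · exact (hT _ ht).2 hs
  · exact (hT _ ht).1 c

theorem lg_keep {p : ℝ} {W : Set V} (hW : W.Finite) (B S T : Set V) :
    Ex (EG G W) (fun _ => p) (fun ω => ind (¬ link (keep ω (ins B)) S T)) =
      lg G p (W ∩ B) S T := by
  rw [Ex_keep _ _ _ (fun ω => ind (¬ link ω S T)), keep_EG hW, lg]

/-- square root trick -/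
theorem lg_prod {p : ℝ} (h0 : 0 ≤ p) (h1 : p ≤ 1) (W S T1 T2 : Set V) :
    lg G p W S T1 * lg G p W S T2 ≤ lg G p W S (T1 ∪ T2) := by
  refine (harris_anti (P01_const h0 h1) _ _ _ (anti_link S T1) (anti_link S T2)).trans
    (Ex_mono (P01_const h0 h1) fun ω _ => ?_)
  rw [← ind_and]
  refine ind_mono fun a ⟨s, hs, t, ht, hc⟩ => ?_
  rcases ht with ht | ht
  · exact a.1 ⟨s, hs, t, ht, hc⟩
  · exact a.2 ⟨s, hs, t, ht, hc⟩

/-- either the target is reached inside `B`, or `B` is left inside `B'` -/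
theorem lg_split {p : ℝ} (h0 : 0 ≤ p) (h1 : p ≤ 1) {W B B' S : Set V} (T : Set V) (hW : W.Finite)
    (hB : B ⊆ B') (hB' : ∀ u ∈ B, ∀ v, G.Adj u v → v ∈ B') (hS : S ⊆ B) :
    lg G p (W ∩ B) S T * lg G p (W ∩ B') S Bᶜ ≤ lg G p W S T := by
  rw [← lg_keep hW, ← lg_keep hW]
  refine (harris_anti (P01_const h0 h1) _ _ _
    (fun _ _ h => anti_link S T (keep_mono h subset_rfl))
    (fun _ _ h => anti_link S Bᶜ (keep_mono h subset_rfl))).trans
    (Ex_mono (P01_const h0 h1) fun ω hω => ?_)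
  rw [← ind_and]
  refine ind_mono fun a ⟨s, hs, t, ht, hc⟩ => ?_
  rcases exit_or ((LatG_EG W).mono hω) hB hB' (hS hs) hc with c | ⟨y, _, c1, c2⟩
  · exact a.1 ⟨s, hs, t, ht, c.2⟩
  · exact a.2 ⟨s, hs, y, c1, c2⟩

theorem lg_exit {p : ℝ} (h0 : 0 ≤ p) (h1 : p ≤ 1) {W B B' S T : Set V} (hW : W.Finite)
    (hB : B ⊆ B') (hB' : ∀ u ∈ B, ∀ v, G.Adj u v → v ∈ B') (hS : S ⊆ B) (hT : ∀ t ∈ T, t ∉ B) :
    lg G p (W ∩ B') S Bᶜ ≤ lg G p W S T := by
  have := lg_split (G := G) h0 h1 T hW hB hB' hS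
  rwa [lg_eq_one (W := W ∩ B) fun y hy => ⟨fun c => hT y hy c.2, fun c => hT y hy (hS c)⟩,
    one_mul] at this

theorem lg_continuous (W S T : Set V) : Continuous fun p : ℝ => lg G p W S T :=
  Ex_continuous _ (fun (p : ℝ) _ => p) (fun _ => continuous_id) _

theorem iso_dist (hG : Bdd G Δ) (φ : G ≃g G) (x y : V) : G.dist (φ x) (φ y) = G.dist x y := by
  have : ∀ (ψ : G ≃g G) (x y : V), G.dist (ψ x) (ψ y) ≤ G.dist x y := by
    intro ψ x y
    obtain ⟨w, hw⟩ := hG.con.exists_walk_length_eq_dist x y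
    have := SimpleGraph.dist_le (w.map ψ.toHom)
    rwa [SimpleGraph.Walk.length_map, hw] at this
  refine le_antisymm (this φ x y) ?_
  simpa using this φ.symm (φ x) (φ y)

theorem lg_iso (φ : G ≃g G) (p : ℝ) {W W' S S' T T' : Set V} (hf : W.Finite)
    (hW : ∀ x, φ x ∈ W' ↔ x ∈ W) (hS : ∀ x, φ x ∈ S' ↔ x ∈ S) (hT : ∀ x, φ x ∈ T' ↔ x ∈ T) :
    lg G p W' S' T' = lg G p W S T := by
  have hf' : W'.Finite := (hf.image φ).subset fun y hy =>
    ⟨φ.symm y, (hW _).1 (by simpa using hy), by simp⟩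
  have e : EG G W' = (EG G W).map ⟨Sym2.map φ.toEquiv, Sym2.map.injective φ.toEquiv.injective⟩ := by
    ext e
    induction e using Sym2.ind with
    | h x y =>
      obtain ⟨x, rfl⟩ := φ.toEquiv.surjective x
      obtain ⟨y, rfl⟩ := φ.toEquiv.surjective y
      have : s(φ.toEquiv x, φ.toEquiv y) =
        (⟨Sym2.map φ.toEquiv, Sym2.map.injective φ.toEquiv.injective⟩ : _ ↪ _) s(x, y) := rfl
      rw [mk_mem_EG hf', this, mem_map', mk_mem_EG hf]
      exact and_congr (and_congr (hW x) (hW y)) φ.map_adj_iff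
  unfold lg
  rw [e, Ex_map]
  refine Ex_congr fun ω _ => ind_congr (not_congr ⟨?_, ?_⟩)
  · rintro ⟨s, hs, t, ht, hc⟩
    obtain ⟨s, rfl⟩ := φ.toEquiv.surjective s
    obtain ⟨t, rfl⟩ := φ.toEquiv.surjective t
    exact ⟨s, (hS _).1 hs, t, (hT _).1 ht, by
      simpa only [Equiv.symm_apply_apply] using conn_of_map φ.toEquiv ω hc⟩
  · rintro ⟨s, hs, t, ht, hc⟩
    exact ⟨_, (hS _).2 hs, _, (hT _).2 ht, conn_map φ.toEquiv ω hc⟩

theorem ug_iso (hG : Bdd G Δ) (φ : G ≃g G) (p : ℝ) (x : V) (r n : ℕ) :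
    ug G p (φ x) r n = ug G p x r n :=
  lg_iso φ p (hG.bl_finite x n) (fun y => by simp only [mem_bl, iso_dist hG])
    (fun y => by simp only [mem_bl, iso_dist hG])
    (fun y => by simp only [sph, Set.mem_ofPred_eq, iso_dist hG])

/-- `k` steps in a coordinate direction -/
theorem Quo.steps (hG : Bdd G Δ) {pr : V → Z2} {l D c : ℕ} (hQ : Quo G pr l D c) (y : V) {v : Z2}
    (hv : v ∈ dirs) (k : ℕ) : ∃ y', G.dist y y' ≤ c * k ∧
      (pr y').1 = (pr y).1 + k * v.1 ∧ (pr y').2 = (pr y).2 + k * v.2 := by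
  induction k with
  | zero => exact ⟨y, by simp, by simp, by simp⟩
  | succ k ih =>
    obtain ⟨z, h1, h2, h3⟩ := ih
    obtain ⟨y', h4, h5⟩ := hQ.step z v hv
    have := hG.tri y z y'
    refine ⟨y', by rw [Nat.mul_succ]; omega, ?_, ?_⟩
    · rw [h5, Prod.fst_add, h2]; push_cast; ring
    · rw [h5, Prod.snd_add, h3]; push_cast; ring

theorem CH.mono {p : ℝ} {r K : ℕ} {δ δ' ε : ℝ} (h : CH G p r K δ ε) (hδ : δ' ≤ δ) :
    CH G p r K δ' ε := fun F q A T o h1 h2 h3 h4 h5 =>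
  h F q A T o h1 h2 h3 h4 fun x hx => (h5 x hx).imp_right fun a => ⟨a.1, a.2.trans hδ⟩

end Vale.Agent.P151G
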