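import Vale.Agent.P151.Geo

/-! Critical percolation on graphs with a planar quotient: definitions and module statements. -/

set_option linter.unusedSectionVars false

namespace Vale.Agent.P151G

open Finset Vale.Agent.P151

variable {V : Type} [DecidableEq V]

/-- connected, degrees at most `Δ` -/
structure Bdd (G : SimpleGraph V) (Δ : ℕ) : Prop where
  con : G.Connected
  deg : ∀ x, ∃ N : Finset V, N.card ≤ Δ ∧ ∀ y, G.Adj x y → y ∈ N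

def bl (G : SimpleGraph V) (x : V) (r : ℕ) : Set V := {y | G.dist x y ≤ r}

def sph (G : SimpleGraph V) (x : V) (r : ℕ) : Set V := {y | G.dist x y = r}

def nb (G : SimpleGraph V) (A : Set V) (j : ℕ) : Set V := {y | ∃ a ∈ A, G.dist a y ≤ j}

open Classical in
/-- the edges of `G` with both ends in `W` (for finite `W`) -/
noncomputable def EG (G : SimpleGraph V) (W : Set V) : Finset (Sym2 V) :=
  if h : (G.edgeSet ∩ ins W).Finite then h.toFinset else ∅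

def LatG (G : SimpleGraph V) (F : Finset (Sym2 V)) : Prop := ∀ x y, s(x, y) ∈ F → G.Adj x y

/-- probability that `S` is not linked to `T` inside `W` -/
noncomputable def lg (G : SimpleGraph V) (p : ℝ) (W S T : Set V) : ℝ :=
  Ex (EG G W) (fun _ => p) fun ω => ind (¬ link ω S T)

noncomputable def ug (G : SimpleGraph V) (p : ℝ) (x : V) (r n : ℕ) : ℝ :=
  lg G p (bl G x n) (bl G x r) (sph G x n)

/-- preimage of a square -/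
def sqr (ρ : V → Z2) (c : Z2) (n : ℤ) : Set V := {y | |(ρ y).1 - c.1| ≤ n ∧ |(ρ y).2 - c.2| ≤ n}

def Lip (G : SimpleGraph V) (ρ : V → Z2) (l : ℕ) : Prop :=
  ∀ x y, G.Adj x y → |(ρ x).1 - (ρ y).1| ≤ l ∧ |(ρ x).2 - (ρ y).2| ≤ l

/-- the planar quotient data -/
structure Quo (G : SimpleGraph V) (pr : V → Z2) (l D c : ℕ) : Prop where
  lip : Lip G pr l
  hom : ∀ o x, ∃ φ : G ≃g G, G.dist (φ o) x ≤ D ∧ ∀ y, pr (φ y) - pr (φ o) = pr y - pr o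
  step : ∀ y, ∀ v ∈ dirs, ∃ y', G.dist y y' ≤ c ∧ pr y' = pr y + v

/-! ### CH -/

def CH (G : SimpleGraph V) (p : ℝ) (r K : ℕ) (δ ε : ℝ) : Prop :=
  ∀ (F : Finset (Sym2 V)) (q : Sym2 V → ℝ) (A T : Set V) (o : V), LatG G F → P01 q →
    o ∉ nb G A (r + K) → (∀ e ∈ F, e ∈ ins (nb G A (r + K)) → q e = p) →
    (∀ x ∈ nb G A K, bl G x r ⊆ T ∨
      (EG G (bl G x r) ⊆ F ∧ Ex F q (fun ω => ind (¬ link ω (bl G x r) T)) ≤ δ)) →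
    Ex F q (fun ω => ind (link ω {o} A ∧ ¬ link ω {o} T)) ≤ ε

def ChainSt (G : SimpleGraph V) : Prop :=
  ∀ ε : ℝ, 0 < ε → ∃ δ : ℝ, 0 < δ ∧ ∀ a b : ℝ, 0 < a → b < 1 → ∀ r : ℕ, ∃ K : ℕ,
    ∀ p : ℝ, a ≤ p → p ≤ b → CH G p r K δ ε

/-! ### SD, FE -/

def Seeds (G : SimpleGraph V) (p : ℝ) (o : V) : Prop :=
  ∀ δ : ℝ, 0 < δ → ∃ r : ℕ, ∀ n : ℕ, r ≤ n → ug G p o r n ≤ δ

def FESt (G : SimpleGraph V) (p : ℝ) : Prop :=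
  ∀ (o : V) (r c : ℕ) (δ : ℝ), 0 < δ → (∀ n : ℕ, r ≤ n → ug G p o r n ≤ δ) →
    ∃ L : ℕ, r ≤ L ∧ ∀ T : Set V, (∀ y, ∃ t ∈ T, G.dist y t ≤ c) →
      lg G p (bl G o L) (bl G o r) T ≤ 2 * δ

/-! ### MV -/

/-- a linear form of the projection, centred at `o` -/
def lin (pr : V → Z2) (a : Z2) (o y : V) : ℤ :=
  a.1 * ((pr y).1 - (pr o).1) + a.2 * ((pr y).2 - (pr o).2)

def Wg (G : SimpleGraph V) (pr : V → Z2) (a b : Z2) (o : V) (U : ℤ) (L : ℕ) : Set V :=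
  {y | G.dist o y ≤ L ∧ 100 * |lin pr a o y| ≤ 101 * U ∧ 100 * |lin pr b o y| ≤ 101 * U}

def Cross (G : SimpleGraph V) (pr : V → Z2) (p : ℝ) (o : V) : Prop :=
  ∀ δ : ℝ, 0 < δ → ∃ r : ℕ, ∀ C : ℕ, ∃ (a b : Z2) (U : ℤ) (L : ℕ), 0 < U ∧ r ≤ L ∧
    C * (|a.1| + |a.2| + |b.1| + |b.2|) ≤ U ∧
    ((lg G p (Wg G pr a b o U L) (bl G o r)
        {y | U ≤ lin pr b o y ∧ 100 * lin pr a o y ≤ U} ≤ δ ∧
      lg G p (Wg G pr a b o U L) (bl G o r) {y | U ≤ lin pr a o y ∧ 0 ≤ lin pr b o y} ≤ δ) ∨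
     (lg G p (Wg G pr a b o U L) (bl G o r)
        {y | U ≤ lin pr b o y ∧ -U ≤ 100 * lin pr a o y} ≤ δ ∧
      lg G p (Wg G pr a b o U L) (bl G o r) {y | U ≤ lin pr a o y ∧ lin pr b o y ≤ 0} ≤ δ))

/-- displacement condition of a move: `a` decreases, `b` increases, the sum increases -/
def mvc (U a b : ℤ) : Prop := -18 * U ≤ a ∧ a ≤ -2 * U ∧ 6 * U ≤ b ∧ b ≤ 22 * U ∧ U ≤ a + b

def Mv (G : SimpleGraph V) (ρ : V → Z2) (p : ℝ) (r L : ℕ) (U : ℤ) (δ : ℝ) : Prop :=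
  ∀ x, lg G p (bl G x L ∩ sqr ρ (ρ x) (22 * U)) (bl G x r)
      {y | mvc U ((ρ y).1 - (ρ x).1) ((ρ y).2 - (ρ x).2)} ≤ δ ∧
    lg G p (bl G x L ∩ sqr ρ (ρ x) (22 * U)) (bl G x r)
      {y | mvc U ((ρ y).2 - (ρ x).2) ((ρ y).1 - (ρ x).1)} ≤ δ

def Moves (G : SimpleGraph V) (p0 : ℝ) : Prop :=
  ∀ δ : ℝ, 0 < δ → ∃ r : ℕ, ∀ K : ℕ, ∃ (ρ : V → Z2) (l L : ℕ) (U : ℤ), 0 < U ∧ r ≤ L ∧
    Lip G ρ l ∧ 20 * ((l : ℤ) * (r + K)) ≤ U ∧ ∀ᶠ p in nhds p0, Mv G ρ p r L U δ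

/-! ### ST -/

def dirs2 : Finset Z2 := {(1, 0), (0, 1)}

def ShG (G : SimpleGraph V) (ρ : V → Z2) (p : ℝ) (m : ℤ) (ε : ℝ) (Far Big : Set V) : Prop :=
  ∀ (q : Sym2 V → ℝ) (o : V) (W : Set V) (c e : Z2), P01 q → e ∈ dirs2 →
    sqr ρ c (10 * m) ⊆ W → (∀ i ∈ ins (sqr ρ c (10 * m)), q i = p) → o ∉ sqr ρ c (10 * m) →
    Ex (EG G Big) q (fun ω => ind (RR ω W o (sqr ρ c (4 * m) ∪ Far) ∧
      ¬ RR ω W o (sqr ρ (c.1 + m * e.1, c.2 + m * e.2) (4 * m) ∪ Far))) ≤ ε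

/-- the region of the first arm -/
def rect (ρ : V → Z2) (c : Z2) (m : ℤ) : Set V :=
  {y | -(10 * m) ≤ (ρ y).1 - c.1 ∧ (ρ y).1 - c.1 ≤ 30 * m ∧ |(ρ y).2 - c.2| ≤ 10 * m}

def InitG (G : SimpleGraph V) (ρ : V → Z2) (q : Sym2 V → ℝ) (m : ℤ) (ε : ℝ) (Far Big : Set V)
    (o : V) : Prop :=
  Ex (EG G Big) q (fun ω => ind (¬ RR ω (rect ρ (ρ o) m) o
    (sqr ρ ((ρ o).1 + 21 * m, (ρ o).2) (4 * m) ∪ Far))) ≤ ε

/-! ### OP -/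

def OPSt : Prop :=
  ∀ (N : ℕ) (Dv : Finset Z2 → Finset Z2 → ℝ) (ε : ℝ), 0 ≤ ε → ε ≤ 1 / 2 ^ 33 →
    (∀ O C, Dv O C ≤ 1) → (∀ O C, (∃ v ∈ O, far N v) → Dv O C ≤ 0) →
    (∀ O C, ∀ v ∈ O, ∀ e ∈ dirs2, ¬ far N v → v + e ∉ O → v + e ∉ C → ∀ a b : ℝ, a ≤ b →
      Dv (insert (v + e) O) C ≤ a → Dv O (insert (v + e) C) ≤ b →
      Dv O C ≤ (1 - ε) * a + ε * b) →
    Dv {(0, 0)} {(0, 1)} ≤ 1 / 2

/-- oriented open path through the sites of `η` (the first site is free) -/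
def ore (η : Finset Z2) (a b : Z2) : Prop :=
  Relation.ReflTransGen (fun u v => (v = u + (1, 0) ∨ v = u + (0, 1)) ∧ v ∈ η) a b

noncomputable def obox (N : ℕ) : Finset Z2 := Icc (0 : ℤ) N ×ˢ Icc (0 : ℤ) N

def IIDSt : Prop :=
  ∀ (N : ℕ) (ε : ℝ), 0 ≤ ε → ε ≤ 1 / 2 ^ 33 →
    Ex (obox N) (fun _ => 1 - ε)
      (fun η => ind (¬ ∃ v, far N v ∧ ore (η.erase (0, 1)) (0, 0) v)) ≤ 1 / 2

/-! ### FIN -/

def FM (G : SimpleGraph V) : Prop :=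
  ∀ (o : V) (p0 θ : ℝ), 0 < p0 → p0 < 1 → 0 < θ → (∀ n : ℕ, ug G p0 o 0 n ≤ 1 - θ) →
    ∃ p θ' : ℝ, 0 < p ∧ p < p0 ∧ 0 < θ' ∧ ∀ n : ℕ, ug G p o 0 n ≤ 1 - θ'

end Vale.Agent.P151G
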